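import Vale.Agent.P225.Assembly.Rates.Tools

/-!
P225, assembly (rates): favourable dwells and waits dominate the time before them.
-/

noncomputable section

namespace Vale.Agent.P225.ClusterRate

variable {S : Schedule} {R : ℕ} {d : PathData} {r₂ β φ₀ : ℝ} {Ca Cd : ℝ} {N : ℕ}

/-- Along a dwell an exponent is the exponent at the normal point, up to the rest of the stage. -/
theorem dwell_exp (h : S.Adm R d r₂ β φ₀)
    (hdec : ∀ t ∈ band, ∀ s u : ℝ, (d.j₀ : ℝ) ^ 6 ≤ s → s ≤ u →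
      |freeDecay d r₂ β s u t| ≤ Ca * (u - s) ∧
      ((∀ v ∈ Set.Icc s u, ∀ k, basePar d v k = d.scale v) →
        |freeDecay d r₂ β s u t - expo (27 / 4) t * (u - s)| ≤
          Cd * (1 + (u - s) * drift d s)))
    (hdrift : ∀ s : ℝ, (d.j₀ : ℝ) ^ 6 ≤ s → Cd * drift d s ≤ 1 / 256)
    {p : Param} {i : ℕ} (hshift : ∀ (l : ℕ) (hl : l < (S.cd (d.j₀ + i)).len), ∀ t ∈ band,
      |stageShift d r₂ β p ((S.cd (d.j₀ + i)).stage ⟨l, hl⟩).spec.gauge i l t| ≤ 1)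
    {m : ℕ} (hk : m + 1 < (S.cd (d.j₀ + i)).len) {t : Lbl} (ht : t ∈ band) :
    |clusterExp d r₂ β p (S.cd (d.j₀ + i)) i (m + 1) t -
        expo (27 / 4) t * (((R : ℝ) ^ (2 * m + 2) + 1) * ((d.j₀ + i : ℕ) : ℝ) ^ 4)| ≤
      Ca * ((((S.cd (d.j₀ + i)).stage ⟨m, Nat.lt_of_succ_lt hk⟩).nLet : ℝ) +
          (R : ℝ) ^ (2 * m + 1) + 2) * ((d.j₀ + i : ℕ) : ℝ) ^ 4 + Cd +
        ((R : ℝ) ^ (2 * m + 2) + 1) * ((d.j₀ + i : ℕ) : ℝ) ^ 4 / 256 + 1 := by
  have hd := h.good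
  have hE := one_le_fourth h i
  have hm : m < (S.cd (d.j₀ + i)).len := Nat.lt_of_succ_lt hk
  have hsucc := stage_succ h i m hm
  rw [if_pos hk] at hsucc
  have hae : clusterExp d r₂ β p (S.cd (d.j₀ + i)) i (m + 1) t =
      freeDecay d r₂ β (ctrlStart d i m) (ctrlStart d i (m + 1)) t +
      stageShift d r₂ β p ((S.cd (d.j₀ + i)).stage ⟨m + 1, hk⟩).spec.gauge i (m + 1) t := by
    simp only [clusterExp, if_pos ht, if_pos hk.le, dif_pos hk]
    rw [node_succ d i hm, node_succ d i hk]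
  have hs0 := stage_ge h i (l := m) hm.le
  have hn0 : (0 : ℝ) ≤ (((S.cd (d.j₀ + i)).stage ⟨m, hm⟩).nLet : ℝ) := Nat.cast_nonneg _
  have hP0 : 0 ≤ (R : ℝ) ^ (2 * m + 1) := by positivity
  have hQ0 : 0 ≤ (R : ℝ) ^ (2 * m + 2) := by positivity
  have hpar := fun v hv => basePar_short h hk (u := v) hv
  have g0 : (d.j₀ : ℝ) ^ 6 ≤ ctrlStart d i m := by rw [ctrlStart_eq]; linarith
  have l1 := ctrlStart_eq d i m
  have l3 := ctrlStart_eq d i (m + 1)
  generalize (((S.cd (d.j₀ + i)).stage ⟨m, hm⟩).nLet : ℝ) = n at *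
  generalize ((d.j₀ + i : ℕ) : ℝ) ^ 4 = E at *
  generalize (R : ℝ) ^ (2 * m + 1) = P at *
  generalize (R : ℝ) ^ (2 * m + 2) = Q at *
  have o1 : ctrlStart d i m ≤ stageStart d i m + (n + P + 2) * E := by nlinarith
  have o2 : stageStart d i m + (n + P + 2) * E ≤ stageStart d i (m + 1) := by nlinarith
  have o3 : stageStart d i (m + 1) ≤ ctrlStart d i (m + 1) := by linarith
  rw [hae, decay_add hd t g0 o1 (o2.trans o3), decay_add hd t (g0.trans o1) o2 o3]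
  have e1 := abs_le.1 (hdec t ht _ _ g0 o1).1
  have e3 := abs_le.1 (hdec t ht _ _ ((g0.trans o1).trans o2) o3).1
  have e2 := abs_le.1 ((hdec t ht _ _ (g0.trans o1) o2).2 hpar)
  have e4 := abs_le.1 (hshift (m + 1) hk t ht)
  rw [show stageStart d i (m + 1) - (stageStart d i m + (n + P + 2) * E) = (Q + 1) * E by
    rw [hsucc]; ring] at e2
  rw [show stageStart d i m + (n + P + 2) * E - ctrlStart d i m = (n + P + 1) * E by
    rw [l1]; ring] at e1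
  rw [show ctrlStart d i (m + 1) - stageStart d i (m + 1) = E by rw [l3]; ring] at e3
  have h2 := mul_le_mul_of_nonneg_left (hdrift _ (g0.trans o1))
    (show 0 ≤ (Q + 1) * E by positivity)
  rw [abs_le]
  constructor <;> linarith

/-- The arithmetic of `dominate`. -/
theorem dom_arith {Ca Cd N R n m P E B g aX aY eX eY : ℝ} (hCa : 0 < Ca) (hCd : 0 ≤ Cd)
    (hN0 : 0 ≤ N) (hRK : 2 * Ca * (N + 3) + 2 * Cd + 2 + 2 * Ca * (2 * N + 11) + 2 * N ≤ 3 / 128 * R)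
    (hn : n ≤ N) (hm : m + 1 ≤ N) (hP : 1 ≤ P) (hE : 1 ≤ E) (hR : 0 ≤ R)
    (hB : B ≤ 2 * (N + 5) * (P * E)) (hg : eX + 1 / 32 ≤ eY)
    (hX : |aX - eX * g| ≤ Ca * (n + P + 2) * E + Cd + g / 256 + 1)
    (hY : |aY - eY * g| ≤ Ca * (n + P + 2) * E + Cd + g / 256 + 1)
    (hgv : g = (P * R + 1) * E) :
    2 * (Ca * (B + E) + (m + 1)) ≤ aY - aX := by
  have hPE : 1 ≤ P * E := one_le_mul_of_one_le_of_one_le hP hE
  have hg0 : P * E * R ≤ g := by rw [hgv]; linarith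
  have h0 : 0 ≤ g := le_trans (by positivity) hg0
  have b0 := mul_le_mul_of_nonneg_right hg h0
  have b1 := mul_le_mul_of_nonneg_left hB hCa.le
  have b2 : Ca * E ≤ Ca * (P * E) :=
    mul_le_mul_of_nonneg_left (le_mul_of_one_le_left (by linarith) hP) hCa.le
  have b3 : Ca * (n + P + 2) * E ≤ Ca * (N + 3) * (P * E) := by
    rw [mul_assoc Ca, mul_assoc Ca]
    refine mul_le_mul_of_nonneg_left ?_ hCa.le
    rw [← mul_assoc]
    exact mul_le_mul_of_nonneg_right (by nlinarith [mul_nonneg hN0 (sub_nonneg.2 hP)])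
      (by linarith)
  have b4 : Cd + 1 + N ≤ (Cd + 1 + N) * (P * E) := le_mul_of_one_le_right (by positivity) hPE
  have b5 := mul_le_mul_of_nonneg_right hRK (show 0 ≤ P * E by linarith)
  have kX := abs_le.1 hX
  have kY := abs_le.1 hY
  linarith

/-- A favourable dwell beats all the exponents before it. -/
theorem dominate (h : S.Adm R d r₂ β φ₀) (hCa : 0 < Ca) (hCd : 0 ≤ Cd)
    (hdec : ∀ t ∈ band, ∀ s u : ℝ, (d.j₀ : ℝ) ^ 6 ≤ s → s ≤ u →
      |freeDecay d r₂ β s u t| ≤ Ca * (u - s) ∧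
      ((∀ v ∈ Set.Icc s u, ∀ k, basePar d v k = d.scale v) →
        |freeDecay d r₂ β s u t - expo (27 / 4) t * (u - s)| ≤
          Cd * (1 + (u - s) * drift d s)))
    (hdrift : ∀ s : ℝ, (d.j₀ : ℝ) ^ 6 ≤ s → Cd * drift d s ≤ 1 / 256)
    (hN : ∀ j, (S.cd j).len ≤ N ∧ ∀ l, ((S.cd j).stage l).nLet ≤ N) (hR2 : 2 ≤ R)
    (hRK : 2 * Ca * (N + 3) + 2 * Cd + 2 + 2 * Ca * (2 * N + 11) + 2 * N ≤ 3 / 128 * (R : ℝ))
    {p : Param} {i : ℕ} (hshift : ∀ (l : ℕ) (hl : l < (S.cd (d.j₀ + i)).len), ∀ t ∈ band,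
      |stageShift d r₂ β p ((S.cd (d.j₀ + i)).stage ⟨l, hl⟩).spec.gauge i l t| ≤ 1)
    {m : ℕ} (hk : m + 1 < (S.cd (d.j₀ + i)).len) {X Y : Lbl} (hX : X ∈ band) (hY : Y ∈ band)
    (hXY : cas4 X < cas4 Y) :
    2 * ∑ x ∈ Finset.range (m + 1),
        (Ca * (expNode d (S.cd (d.j₀ + i)).len i (x + 1) -
          expNode d (S.cd (d.j₀ + i)).len i x) + 1) ≤
      clusterExp d r₂ β p (S.cd (d.j₀ + i)) i (m + 1) Y -
        clusterExp d r₂ β p (S.cd (d.j₀ + i)) i (m + 1) X := by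
  have hm : m < (S.cd (d.j₀ + i)).len := Nat.lt_of_succ_lt hk
  have hR' : (2 : ℝ) ≤ R := by exact_mod_cast hR2
  have hsum : ∑ x ∈ Finset.range (m + 1), (Ca * (expNode d (S.cd (d.j₀ + i)).len i (x + 1) -
      expNode d (S.cd (d.j₀ + i)).len i x) + 1) =
      Ca * ((stageStart d i m - clusterStart d i) + ((d.j₀ + i : ℕ) : ℝ) ^ 4) + ((m : ℝ) + 1) := by
    simp only [Finset.sum_add_distrib, ← Finset.mul_sum,
      Finset.sum_range_sub (expNode d (S.cd (d.j₀ + i)).len i)]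
    rw [node_succ d i hm, ctrlStart_eq]
    simp only [expNode, Finset.sum_const, Finset.card_range, nsmul_eq_mul, mul_one]
    push_cast
    ring
  rw [hsum]
  refine dom_arith (N := (N : ℝ)) (n := (((S.cd (d.j₀ + i)).stage ⟨m, hm⟩).nLet : ℝ))
    (P := (R : ℝ) ^ (2 * m + 1)) hCa hCd (Nat.cast_nonneg N) hRK ?_ ?_
    (one_le_pow₀ (by linarith)) (one_le_fourth h i) (Nat.cast_nonneg R) ?_
    (expo_gap hY hXY) (dwell_exp h hdec hdrift hshift hk hX)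
    (dwell_exp h hdec hdrift hshift hk hY) (by rw [← pow_succ])
  · exact Nat.cast_le.2 ((hN (d.j₀ + i)).2 ⟨m, hm⟩)
  · exact_mod_cast hm.trans_le (hN _).1
  · refine (before_le h hN hR2 i m hm.le).trans ?_
    rw [mul_assoc (2 * ((N : ℝ) + 5))]
    gcongr
    · linarith
    · omega

/-- A wait beats the growth before it. -/
theorem wait_dominate (h : S.Adm R d r₂ β φ₀) (hCa : 0 < Ca)
    (hN : ∀ j, (S.cd j).len ≤ N ∧ ∀ l, ((S.cd j).stage l).nLet ≤ N) (hR2 : 2 ≤ R)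
    (hRK : 2 * Ca * (3 * N + 11) + 3 ≤ 24 / 5 * (R : ℝ))
    {i l : ℕ} (hl : l < (S.cd (d.j₀ + i)).len) :
    2 * Ca * (ctrlEnd d i l - clusterStart d i) + 3 * ((d.j₀ + i : ℕ) : ℝ) ^ 4 ≤
      24 / 5 * (segEnd d i l - ctrlEnd d i l) := by
  have hE := one_le_fourth h i
  have hR' : (2 : ℝ) ≤ R := by exact_mod_cast hR2
  have hsucc := stage_succ h i l hl
  have hbef := before_le h hN hR2 i l hl.le
  have hseg : stageStart d i (l + 1) ≤ segEnd d i l := by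
    rw [segEnd, plan_length h]
    split_ifs with hl'
    · exact le_rfl
    · have e : l + 1 = (S.cd (d.j₀ + i)).len := by omega
      rw [e, cluster_succ h]
      exact le_add_of_nonneg_right (by positivity)
  rw [ctrlEnd_eq h i l hl]
  set n : ℝ := (((S.cd (d.j₀ + i)).stage ⟨l, hl⟩).nLet : ℝ) with hn_def
  have hn : n ≤ N := Nat.cast_le.2 ((hN (d.j₀ + i)).2 ⟨l, hl⟩)
  have hD : 0 ≤ (if l + 1 < (S.cd (d.j₀ + i)).len then (R : ℝ) ^ (2 * l + 2) else 0) := by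
    split_ifs <;> positivity
  have hP : (R : ℝ) ^ (2 * l + 1) = (R : ℝ) ^ (2 * l) * R := pow_succ _ _
  have hP0 : (1 : ℝ) ≤ (R : ℝ) ^ (2 * l) := one_le_pow₀ (by linarith)
  set E : ℝ := ((d.j₀ + i : ℕ) : ℝ) ^ 4
  set Q : ℝ := (R : ℝ) ^ (2 * l)
  set D : ℝ := (if l + 1 < (S.cd (d.j₀ + i)).len then (R : ℝ) ^ (2 * l + 2) else 0)
  rw [hP] at hsucc
  have b1 : 24 / 5 * (Q * R * E) ≤ 24 / 5 * (segEnd d i l - (stageStart d i l + (1 + n) * E)) := by
    nlinarith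
  have b2 : (1 + n) * E ≤ (1 + N) * (Q * E) :=
    mul_le_mul (by linarith) (le_mul_of_one_le_left (by linarith) hP0) (by linarith)
      (by positivity)
  have b3 := mul_le_mul_of_nonneg_left (add_le_add hbef b2) (show 0 ≤ 2 * Ca by positivity)
  have b4 : 3 * E ≤ 3 * (Q * E) :=
    mul_le_mul_of_nonneg_left (le_mul_of_one_le_left (by linarith) hP0) (by norm_num)
  have b5 : (2 * Ca * (3 * N + 11) + 3) * (Q * E) ≤ 24 / 5 * R * (Q * E) :=
    mul_le_mul_of_nonneg_right hRK (by positivity)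
  linarith

end Vale.Agent.P225.ClusterRate
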