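import Vale.Agent.P225.Assembly.Ideal
import Vale.Agent.P225.System.StageExact.Near

/-!
P225, assembly (rates): times of a cluster, the dwells, the decay constants and the drift.
-/

noncomputable section

namespace Vale.Agent.P225.ClusterRate

open Set

variable {S : Schedule} {R : ℕ} {d : PathData} {r₂ β φ₀ : ℝ}

theorem exists_size (S : Schedule) :
    ∃ N : ℕ, ∀ j, (S.cd j).len ≤ N ∧ ∀ l, ((S.cd j).stage l).nLet ≤ N := by
  refine ⟨∑ j ∈ Finset.range S.period, ((S.cd j).len + ∑ l, ((S.cd j).stage l).nLet), fun j => ?_⟩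
  rw [← Function.Periodic.map_mod_nat (f := S.cd) S.periodic j]
  have h := Finset.single_le_sum (f := fun j => (S.cd j).len + ∑ l, ((S.cd j).stage l).nLet)
    (fun _ _ => Nat.zero_le _) (Finset.mem_range.2 (Nat.mod_lt j S.period_pos))
  refine ⟨le_trans (Nat.le_add_right _ _) h, fun l => le_trans ?_ h⟩
  exact le_trans (Finset.single_le_sum (f := fun l => ((S.cd (j % S.period)).stage l).nLet)
    (fun _ _ => Nat.zero_le _) (Finset.mem_univ l)) (Nat.le_add_left _ _)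

theorem len_pos (c : ClusterData) : 0 < c.len := by
  refine Nat.pos_of_ne_zero fun h => c.spec.nonempty (List.eq_nil_of_length_eq_zero ?_)
  rw [List.length_ofFn, h]

theorem plan_length (h : S.Adm R d r₂ β φ₀) (j : ℕ) : (d.plan j).length = (S.cd j).len := by
  simp [h.plan_eq, Schedule.plan, ClusterData.stagePlan]

theorem plan_getElem (h : S.Adm R d r₂ β φ₀) {j l : ℕ} (hl : l < (S.cd j).len)
    (hl' : l < (d.plan j).length) :
    (d.plan j)[l] = ⟨((S.cd j).stage ⟨l, hl⟩).spec.gauge, ((S.cd j).stage ⟨l, hl⟩).nLet,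
      ((S.cd j).stage ⟨l, hl⟩).letter, R ^ (2 * l + 1),
      if l + 1 < (S.cd j).len then R ^ (2 * l + 2) else 0⟩ := by
  rw [List.getElem_of_eq (congrFun h.plan_eq j) hl']
  exact (S.cd j).stagePlan_getElem R l hl _

theorem one_le_fourth (h : S.Adm R d r₂ β φ₀) (i : ℕ) : (1 : ℝ) ≤ ((d.j₀ + i : ℕ) : ℝ) ^ 4 :=
  one_le_pow₀ (by exact_mod_cast Trunc.one_le_idx h.good i)

theorem ctrlStart_eq (d : PathData) (i l : ℕ) :
    ctrlStart d i l = stageStart d i l + ((d.j₀ + i : ℕ) : ℝ) ^ 4 := by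
  simp [ctrlStart, speed]

theorem ctrlEnd_eq (h : S.Adm R d r₂ β φ₀) (i l : ℕ) (hl : l < (S.cd (d.j₀ + i)).len) :
    ctrlEnd d i l = stageStart d i l +
      (1 + (((S.cd (d.j₀ + i)).stage ⟨l, hl⟩).nLet : ℝ)) * ((d.j₀ + i : ℕ) : ℝ) ^ 4 := by
  have hl' : l < (d.plan (d.j₀ + i)).length := by rw [plan_length h]; exact hl
  rw [ctrlEnd, List.getElem?_eq_getElem hl', plan_getElem h hl hl']
  simp [speed]

theorem stage_succ (h : S.Adm R d r₂ β φ₀) (i l : ℕ) (hl : l < (S.cd (d.j₀ + i)).len) :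
    stageStart d i (l + 1) = stageStart d i l +
      ((((S.cd (d.j₀ + i)).stage ⟨l, hl⟩).nLet : ℝ) + (R : ℝ) ^ (2 * l + 1) +
        (if l + 1 < (S.cd (d.j₀ + i)).len then (R : ℝ) ^ (2 * l + 2) else 0) + 3) *
        ((d.j₀ + i : ℕ) : ℝ) ^ 4 := by
  have hl' : l < (d.plan (d.j₀ + i)).length := by rw [plan_length h]; exact hl
  rw [Trunc.stageStart_succ hl', plan_getElem h hl hl']
  simp [StagePlan.dur, speed]

theorem cluster_succ (h : S.Adm R d r₂ β φ₀) (i : ℕ) :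
    clusterStart d (i + 1) =
      stageStart d i (S.cd (d.j₀ + i)).len + ((d.j₀ + i : ℕ) : ℝ) ^ 5 := by
  rw [Trunc.clusterStart_succ_eq, plan_length h]

theorem stage_mono (h : S.Adm R d r₂ β φ₀) (i : ℕ) {l m : ℕ} (hlm : l ≤ m)
    (hm : m ≤ (S.cd (d.j₀ + i)).len) : stageStart d i l ≤ stageStart d i m :=
  Trunc.stageStart_mono h.good i hlm (by rwa [plan_length h])

theorem stage_ge (h : S.Adm R d r₂ β φ₀) (i : ℕ) {l : ℕ} (hl : l ≤ (S.cd (d.j₀ + i)).len) :
    (d.j₀ : ℝ) ^ 6 ≤ stageStart d i l :=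
  Trunc.stageStart_ge h.good (by rwa [plan_length h])

/-- Geometric growth of the time before a stage. -/
theorem before_le (h : S.Adm R d r₂ β φ₀) {N : ℕ}
    (hN : ∀ j, (S.cd j).len ≤ N ∧ ∀ l, ((S.cd j).stage l).nLet ≤ N) (hR : 2 ≤ R) (i : ℕ) :
    ∀ l ≤ (S.cd (d.j₀ + i)).len, stageStart d i l - clusterStart d i ≤
      2 * (N + 5) * (R : ℝ) ^ (2 * l) * ((d.j₀ + i : ℕ) : ℝ) ^ 4 := by
  have hE := one_le_fourth h i
  have hR' : (2 : ℝ) ≤ R := by exact_mod_cast hR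
  intro l
  induction l with
  | zero =>
    intro _
    rw [Trunc.stageStart_zero, sub_self]
    positivity
  | succ l ih =>
    intro hl
    rw [stage_succ h i l hl]
    have h1 := ih (by omega)
    have hn : (((S.cd (d.j₀ + i)).stage ⟨l, hl⟩).nLet : ℝ) ≤ N := by exact_mod_cast (hN _).2 _
    have p1 : (1 : ℝ) ≤ (R : ℝ) ^ (2 * l + 2) := one_le_pow₀ (by linarith)
    have p2 : (R : ℝ) ^ (2 * l + 1) ≤ (R : ℝ) ^ (2 * l + 2) :=
      pow_le_pow_right₀ (by linarith) (by omega)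
    have p3 : 2 * (R : ℝ) ^ (2 * l) ≤ (R : ℝ) ^ (2 * l + 2) := by
      rw [pow_succ, pow_succ]
      nlinarith [mul_le_mul_of_nonneg_left (show (2 : ℝ) ≤ R * R by nlinarith)
        (show 0 ≤ (R : ℝ) ^ (2 * l) by positivity)]
    have p4 : (if l + 1 < (S.cd (d.j₀ + i)).len then (R : ℝ) ^ (2 * l + 2) else 0) ≤
        (R : ℝ) ^ (2 * l + 2) := by split_ifs <;> linarith
    have key : 2 * (N + 5) * (R : ℝ) ^ (2 * l) +
        ((((S.cd (d.j₀ + i)).stage ⟨l, hl⟩).nLet : ℝ) + (R : ℝ) ^ (2 * l + 1) +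
          (if l + 1 < (S.cd (d.j₀ + i)).len then (R : ℝ) ^ (2 * l + 2) else 0) + 3) ≤
        2 * (N + 5) * (R : ℝ) ^ (2 * l + 2) := by
      nlinarith [mul_nonneg (Nat.cast_nonneg N : (0 : ℝ) ≤ N) (sub_nonneg.2 p3),
        mul_nonneg (Nat.cast_nonneg N : (0 : ℝ) ≤ N) (sub_nonneg.2 p1)]
    rw [show 2 * (l + 1) = 2 * l + 2 by ring]
    nlinarith [mul_le_mul_of_nonneg_right key (show (0 : ℝ) ≤ ((d.j₀ + i : ℕ) : ℝ) ^ 4 by linarith)]

/-- At the normal point on a stage. -/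
theorem basePar_one (hd : d.Good r₂ β φ₀) {u : ℝ} {i l : ℕ}
    (hl : l < (d.plan (d.j₀ + i)).length)
    (hu : u ∈ Ico (stageStart d i l) (stageStart d i (l + 1)))
    (hθ : stageTheta ((d.plan (d.j₀ + i))[l]) (speed (d.j₀ + i) * (u - stageStart d i l)) = 1)
    (k : Fin 3) : basePar d u k = d.scale u := by
  rw [Free.basePar_stage hd hl hu, hθ, Free.linePar_one]

/-- A stage starts at the normal point. -/
theorem basePar_start (hd : d.Good r₂ β φ₀) {i l : ℕ} (hl : l < (d.plan (d.j₀ + i)).length)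
    (k : Fin 3) : basePar d (stageStart d i l) k = d.scale (stageStart d i l) :=
  basePar_one hd hl (left_mem_Ico.2 (Trunc.stageStart_lt_succ hd hl))
    (Free.stageTheta_start _ (by simp)) k

/-- The short dwell is at the normal point. -/
theorem basePar_short (h : S.Adm R d r₂ β φ₀) {i l : ℕ} (hl : l + 1 < (S.cd (d.j₀ + i)).len)
    {u : ℝ} (hu : u ∈ Icc (stageStart d i l +
      ((((S.cd (d.j₀ + i)).stage ⟨l, Nat.lt_of_succ_lt hl⟩).nLet : ℝ) + (R : ℝ) ^ (2 * l + 1) + 2) *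
        ((d.j₀ + i : ℕ) : ℝ) ^ 4) (stageStart d i (l + 1)))
    (k : Fin 3) : basePar d u k = d.scale u := by
  have hl' : l < (d.plan (d.j₀ + i)).length := by rw [plan_length h]; omega
  rcases hu.2.eq_or_lt with e | hlt
  · rw [e]; exact basePar_start h.good (by rw [plan_length h]; exact hl) k
  have hE := one_le_fourth h i
  set n : ℝ := (((S.cd (d.j₀ + i)).stage ⟨l, Nat.lt_of_succ_lt hl⟩).nLet : ℝ)
  have hn : 0 ≤ n := Nat.cast_nonneg _
  have hW : 0 ≤ (R : ℝ) ^ (2 * l + 1) := by positivity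
  have h0 : 0 ≤ (n + (R : ℝ) ^ (2 * l + 1) + 2) * ((d.j₀ + i : ℕ) : ℝ) ^ 4 := by positivity
  refine basePar_one h.good hl' ⟨by linarith [hu.1], hlt⟩ ?_ k
  have hx : n + (R : ℝ) ^ (2 * l + 1) + 2 ≤ speed (d.j₀ + i) * (u - stageStart d i l) := by
    rw [speed, ← div_eq_inv_mul, le_div_iff₀ (by linarith)]
    linarith [hu.1]
  generalize speed (d.j₀ + i) * (u - stageStart d i l) = x at hx
  rw [plan_getElem h (Nat.lt_of_succ_lt hl) hl', stageTheta,
    Real.smoothTransition.one_of_one_le (by linarith),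
    Real.smoothTransition.one_of_one_le (by push_cast; linarith)]
  ring

/-- The long dwell is at the normal point. -/
theorem basePar_long (h : S.Adm R d r₂ β φ₀) {i : ℕ} {u : ℝ}
    (hu : u ∈ Icc (stageStart d i (S.cd (d.j₀ + i)).len) (clusterStart d (i + 1))) (k : Fin 3) :
    basePar d u k = d.scale u := by
  rcases hu.2.eq_or_lt with e | hlt
  · rw [e, ← Trunc.stageStart_zero]
    exact basePar_start h.good (List.length_pos_iff.2 (h.good.isPlan.nonempty _)) k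
  · rw [← plan_length h] at hu
    have h6 : (d.j₀ : ℝ) ^ 6 - 1 ≤ u := by linarith [hu.1, Trunc.stageStart_ge h.good (le_refl
      (d.plan (d.j₀ + i)).length)]
    rw [Free.basePar_of_eq (Free.pathQ_late h.good h6
      (Trunc.not_inStage_dwell h.good ⟨hu.1, hlt⟩))]

/-- The rate is continuous from the first cluster on. -/
theorem rate_integrable (hd : d.Good r₂ β φ₀) (t : Lbl) {s u : ℝ} (hs : (d.j₀ : ℝ) ^ 6 ≤ s)
    (hu : (d.j₀ : ℝ) ^ 6 ≤ u) :
    IntervalIntegrable (freeRate d r₂ β t) MeasureTheory.volume s u := by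
  refine ContinuousOn.intervalIntegrable fun x hx => ?_
  refine ((freeRate_spec hd t).2 x ?_).continuousAt.continuousWithinAt
  exact (Trunc.startTime_le hd (le_min hs hu)).trans hx.1

theorem decay_add (hd : d.Good r₂ β φ₀) (t : Lbl) {s m u : ℝ} (hs : (d.j₀ : ℝ) ^ 6 ≤ s)
    (hsm : s ≤ m) (hmu : m ≤ u) :
    freeDecay d r₂ β s u t = freeDecay d r₂ β s m t + freeDecay d r₂ β m u t :=
  (intervalIntegral.integral_add_adjacent_intervals (rate_integrable hd t hs (hs.trans hsm))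
    (rate_integrable hd t (hs.trans hsm) (hs.trans (hsm.trans hmu)))).symm

/-- The drop of scale and damping after `s`. -/
def drift (d : PathData) (s : ℝ) : ℝ := 27 / 4 - d.scale s + (5 - pathNu d s)

theorem decay_consts : ∃ Ca Cd : ℝ, 0 < Ca ∧ 0 ≤ Cd ∧
    ∀ (d : PathData) (r₂ β φ₀ : ℝ), d.Good r₂ β φ₀ → ∀ t ∈ band, ∀ s u : ℝ,
      (d.j₀ : ℝ) ^ 6 ≤ s → s ≤ u →
      |freeDecay d r₂ β s u t| ≤ Ca * (u - s) ∧
      ((∀ v ∈ Icc s u, ∀ k, basePar d v k = d.scale v) →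
        |freeDecay d r₂ β s u t - expo (27 / 4) t * (u - s)| ≤
          Cd * (1 + (u - s) * drift d s)) := by
  obtain ⟨C, hC, hB⟩ := freeRate_bounds_late
  obtain ⟨C', hD⟩ := freeRate_dwell
  refine ⟨C * 11, max C' 0 * 11, by positivity, by positivity,
    fun d r₂ β φ₀ hd t ht s u hs hsu => ?_⟩
  obtain ⟨hok, hcut, h0⟩ := mem_band.1 ht
  have h11 : Real.sqrt (casSum t) ≤ 11 := by
    rw [Real.sqrt_le_left (by norm_num), casSum]
    have h402 : (cas4 t : ℝ) ≤ 402 := by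
      exact_mod_cast hcut.trans (show cut t ≤ 402 by unfold cut; split <;> omega)
    linarith
  refine ⟨?_, fun hpar => ?_⟩
  · have := intervalIntegral.norm_integral_le_of_norm_le_const (a := s) (b := u) (C := C * 11)
      (f := freeRate d r₂ β t) fun x hx => by
      rw [uIoc_of_le hsu] at hx
      have hx' : (d.j₀ : ℝ) ^ 6 ≤ x := hs.trans hx.1.le
      rw [Real.norm_eq_abs, abs_of_nonneg (freeRate_nonneg hd t (Trunc.startTime_le hd hx'))]
      exact (hB d r₂ β φ₀ hd x hx' t hok h0).2.trans (mul_le_mul_of_nonneg_left h11 hC.le)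
    rw [Real.norm_eq_abs, abs_of_nonneg (sub_nonneg.2 hsu)] at this
    exact this
  · have hd0 : 0 ≤ drift d s := by
      have h1 := (hd.scale_mem s (by linarith)).2
      have h2 := (hd.nu_mem s (by linarith)).2
      unfold drift; linarith
    have h1 : 0 ≤ 1 + (u - s) * drift d s := by nlinarith
    refine (hD d r₂ β φ₀ hd t s u hok h0 hs hsu hpar).trans ?_
    rw [← drift]
    refine mul_le_mul_of_nonneg_right ?_ h1
    exact (mul_le_mul_of_nonneg_right (le_max_left C' 0) (Real.sqrt_nonneg _)).trans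
      (mul_le_mul_of_nonneg_left h11 (le_max_right C' 0))

/-- The drift is uniformly small for a late first cluster. -/
theorem drift_small {ε : ℝ} (hε : 0 < ε) : ∃ j₁ : ℕ, ∀ (d : PathData) (r₂ β φ₀ : ℝ),
    d.Good r₂ β φ₀ → j₁ ≤ d.j₀ → ∀ s : ℝ, (d.j₀ : ℝ) ^ 6 ≤ s → drift d s ≤ ε := by
  refine ⟨⌈((4 / 49 * ε) ^ 5)⁻¹⌉₊, fun d r₂ β φ₀ hd hj s hs => ?_⟩
  have hj0 : (1 : ℝ) ≤ d.j₀ := by exact_mod_cast hd.j₀_pos
  have hJ : (1 : ℝ) ≤ (d.j₀ : ℝ) ^ 6 := one_le_pow₀ hj0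
  have hφ := hd.φ₀_pos
  set F : ℝ → ℝ := fun v => d.scale v + 45 / 4 * φ₀ * (1 + v) ^ (-(1 / 5) : ℝ)
  have hF : ∀ v, s ≤ v → HasDerivAt F
      (φ₀ * (1 + v) ^ (-(6 / 5) : ℝ) * (d.scale v / 3 - 9 / 4)) v := fun v hv => by
    have h1 : HasDerivAt d.scale (deriv d.scale v) v :=
      ((hd.scale_smooth.differentiable (by norm_num)) v).hasDerivAt
    rw [hd.scale_deriv v (by linarith)] at h1
    have h2 := (((hasDerivAt_id' v).const_add (1 : ℝ)).rpow_const (p := (-(1 / 5) : ℝ))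
      (Or.inl (by linarith))).const_mul (45 / 4 * φ₀)
    refine (h1.add h2).congr_deriv ?_
    rw [show (-(1 / 5) : ℝ) - 1 = -(6 / 5) by norm_num]
    ring
  have hanti : AntitoneOn F (Ici s) := by
    refine antitoneOn_of_deriv_nonpos (convex_Ici s)
      (fun v hv => (hF v hv).continuousAt.continuousWithinAt)
      (fun v hv => (hF v (interior_subset hv)).differentiableAt.differentiableWithinAt)
      fun v hv => ?_
    have hv' : s ≤ v := interior_subset hv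
    rw [(hF v hv').deriv]
    refine mul_nonpos_of_nonneg_of_nonpos
      (mul_nonneg hφ.le (Real.rpow_nonneg (by linarith) _)) ?_
    linarith [(hd.scale_mem v (by linarith)).2]
  have hlim : 27 / 4 ≤ F s := by
    refine le_of_tendsto hd.scale_lim (Filter.eventually_atTop.2 ⟨s, fun v hv => ?_⟩)
    refine le_trans ?_ (hanti self_mem_Ici hv hv)
    exact le_add_of_nonneg_right
      (mul_nonneg (by positivity) (Real.rpow_nonneg (by linarith) _))
  have hν : 5 - pathNu d s = φ₀ * (1 + s) ^ (-(6 / 5) : ℝ) := by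
    rw [pathNu, hd.scale_deriv s (by linarith)]
    field_simp [(hd.scale_pos s).ne']
    ring
  have hx : (1 + s) ^ (-(6 / 5) : ℝ) ≤ (1 + s) ^ (-(1 / 5) : ℝ) :=
    Real.rpow_le_rpow_of_exponent_le (by linarith) (by norm_num)
  have hsmall : φ₀ * (1 + s) ^ (-(1 / 5) : ℝ) ≤ 4 / 49 * ε := by
    refine (pow_le_pow_iff_left₀ (mul_nonneg hφ.le (Real.rpow_nonneg (by linarith) _))
      (by positivity) (by norm_num : (5 : ℕ) ≠ 0)).1 ?_
    have hj' : ((4 / 49 * ε) ^ 5)⁻¹ ≤ (d.j₀ : ℝ) := (Nat.le_ceil _).trans (by exact_mod_cast hj)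
    rw [mul_pow, ← Real.rpow_natCast ((1 + s) ^ (-(1 / 5) : ℝ)) 5,
      ← Real.rpow_mul (by linarith),
      show (-(1 / 5) : ℝ) * ((5 : ℕ) : ℝ) = -1 by norm_num, Real.rpow_neg_one]
    calc φ₀ ^ 5 * (1 + s)⁻¹ ≤ (d.j₀ : ℝ) ^ 5 * ((d.j₀ : ℝ) ^ 6)⁻¹ :=
          mul_le_mul (pow_le_pow_left₀ hφ.le hd.φ₀_le 5)
            (inv_anti₀ (by positivity) (by linarith)) (inv_nonneg.2 (by linarith)) (by positivity)
      _ = (d.j₀ : ℝ)⁻¹ := by field_simp
      _ ≤ _ := inv_le_of_inv_le₀ (by positivity) hj'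
  have := mul_le_mul_of_nonneg_left hx hφ.le
  simp only [F] at hlim
  rw [drift, hν]
  linarith

/-- Distinct levels of the band have exponents a fixed amount apart. -/
theorem expo_gap {X Y : Lbl} (hY : Y ∈ band) (h : cas4 X < cas4 Y) :
    expo (27 / 4) X + 1 / 32 ≤ expo (27 / 4) Y := by
  have h402 : (cas4 Y : ℝ) ≤ 402 := by
    exact_mod_cast (mem_band.1 hY).2.1.trans (show cut Y ≤ 402 by unfold cut; split <;> omega)
  have h1 : (cas4 X : ℝ) + 1 ≤ cas4 Y := by exact_mod_cast h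
  have h0 : (0 : ℝ) ≤ cas4 X := Nat.cast_nonneg _
  have a2 := Real.mul_self_sqrt (show (0 : ℝ) ≤ 25 + 27 / 4 * cas4 X by positivity)
  have b2 := Real.mul_self_sqrt (show (0 : ℝ) ≤ 25 + 27 / 4 * cas4 Y by positivity)
  have b53 : Real.sqrt (25 + 27 / 4 * cas4 Y) ≤ 53 := by
    rw [Real.sqrt_le_left (by norm_num)]; linarith
  have a53 : Real.sqrt (25 + 27 / 4 * cas4 X) ≤ 53 := by
    rw [Real.sqrt_le_left (by norm_num)]; linarith
  unfold expo
  have := Real.sqrt_nonneg (25 + 27 / 4 * (cas4 X : ℝ))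
  have := Real.sqrt_nonneg (25 + 27 / 4 * (cas4 Y : ℝ))
  nlinarith

theorem node_succ (d : PathData) (i : ℕ) {L k : ℕ} (hk : k < L) :
    expNode d L i (k + 1) = ctrlStart d i k := if_pos hk

theorem node_last (d : PathData) (i L : ℕ) : expNode d L i (L + 1) = clusterStart d (i + 1) :=
  if_neg (lt_irrefl L)

theorem node_le (h : S.Adm R d r₂ β φ₀) (i : ℕ) {k : ℕ} (hk : k ≤ (S.cd (d.j₀ + i)).len) :
    (d.j₀ : ℝ) ^ 6 ≤ expNode d (S.cd (d.j₀ + i)).len i k ∧
      expNode d (S.cd (d.j₀ + i)).len i k ≤ expNode d (S.cd (d.j₀ + i)).len i (k + 1) := by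
  have hE := one_le_fourth h i
  rcases k with _ | k
  · refine ⟨Trunc.clusterStart_ge h.good i, ?_⟩
    rw [node_succ d i (len_pos _), ctrlStart_eq, Trunc.stageStart_zero]
    show clusterStart d i ≤ _
    linarith
  · rw [node_succ d i hk, ctrlStart_eq]
    refine ⟨by linarith [stage_ge h i (l := k) (by omega)], ?_⟩
    rcases Nat.lt_or_eq_of_le hk with hk' | hk'
    · rw [node_succ d i hk', ctrlStart_eq]
      linarith [stage_mono h i (Nat.le_succ k) hk]
    · rw [← hk', node_last, cluster_succ h, ← hk', stage_succ h i k (by omega)]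
      have h5 : (0 : ℝ) ≤ ((d.j₀ + i : ℕ) : ℝ) ^ 5 := by positivity
      have hn : (0 : ℝ) ≤ (((S.cd (d.j₀ + i)).stage ⟨k, by omega⟩).nLet : ℝ) := Nat.cast_nonneg _
      have hW : 0 ≤ (R : ℝ) ^ (2 * k + 1) := by positivity
      have hD : 0 ≤ (if k + 1 < (S.cd (d.j₀ + i)).len then (R : ℝ) ^ (2 * k + 2) else 0) := by
        split_ifs <;> positivity
      nlinarith

/-- One exponent is bounded by the length of its interval, up to the shift. -/
theorem exp_le (h : S.Adm R d r₂ β φ₀) {Ca : ℝ}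
    (hdec : ∀ t ∈ band, ∀ s u : ℝ, (d.j₀ : ℝ) ^ 6 ≤ s → s ≤ u →
      |freeDecay d r₂ β s u t| ≤ Ca * (u - s))
    {p : Param} {i : ℕ} (hshift : ∀ (l : ℕ) (hl : l < (S.cd (d.j₀ + i)).len), ∀ t ∈ band,
      |stageShift d r₂ β p ((S.cd (d.j₀ + i)).stage ⟨l, hl⟩).spec.gauge i l t| ≤ 1)
    {k : ℕ} (hk : k ≤ (S.cd (d.j₀ + i)).len) {t : Lbl} (ht : t ∈ band) :
    |clusterExp d r₂ β p (S.cd (d.j₀ + i)) i k t| ≤
      Ca * (expNode d (S.cd (d.j₀ + i)).len i (k + 1) - expNode d (S.cd (d.j₀ + i)).len i k) + 1 := by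
  obtain ⟨h1, h2⟩ := node_le h i hk
  simp only [clusterExp, if_pos ht, if_pos hk]
  refine (abs_add_le _ _).trans (add_le_add (hdec t ht _ _ h1 h2) ?_)
  split_ifs with hl
  · exact hshift k hl t ht
  · simp

theorem exists_shift (S : Schedule) (R : ℕ) : ∃ j₁ : ℕ, ∀ (d : PathData) (r₂ β φ₀ : ℝ),
    S.Adm R d r₂ β φ₀ → j₁ ≤ d.j₀ → ∀ p : Param, InBox d p →
      ∀ (i l : ℕ) (hl : l < (S.cd (d.j₀ + i)).len), ∀ t ∈ band,
        |stageShift d r₂ β p ((S.cd (d.j₀ + i)).stage ⟨l, hl⟩).spec.gauge i l t| ≤ 1 := by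
  obtain ⟨j₁, hj₁⟩ := stageNorm_near S.period (S.plan R) S.box 1 one_pos
  refine ⟨j₁, fun d r₂ β φ₀ h hj p hp i l hl t ht => ?_⟩
  have hl' : l < (d.plan (d.j₀ + i)).length := by rw [plan_length h]; exact hl
  have := (hj₁ d r₂ β φ₀ h.period_eq h.plan_eq h.box_eq hj h.good p hp i l hl').2.2 t ht
  rwa [plan_getElem h hl hl'] at this

end Vale.Agent.P225.ClusterRate
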